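import Vale.Agent.P011.H271.GF

/-!
# The components in powers of `t` with coefficients in the `q`-th powers
-/

open Module Polynomial
open scoped IntermediateField

namespace Vale.Agent.P011.H14.Insep

/-- Every element of `k` is a combination of the `c ^ i`, `i < q`, with coefficients `q`-th powers. -/
def Gen (k : Type*) [Field k] (q : ℕ) (c : k) : Prop :=
  ∀ b : k, ∃ s : Fin q → k, b = ∑ i, s i ^ q * c ^ (i : ℕ)

variable {p : ℕ} [Fact p.Prime]

/-- Polynomials over a finite field. -/
theorem gen_poly (F : Type*) [Field F] [Finite F] [CharP F p] (P : F[X]) :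
    ∃ s : Fin p → F[X], P = ∑ i, s i ^ p * X ^ (i : ℕ) := by
  have hp : p.Prime := Fact.out
  induction P using Polynomial.induction_on' with
  | add P Q hP hQ =>
    obtain ⟨s, hs⟩ := hP
    obtain ⟨s', hs'⟩ := hQ
    refine ⟨fun i => s i + s' i, ?_⟩
    simp only [add_pow_char, add_mul, Finset.sum_add_distrib]
    rw [← hs, ← hs']
  | monomial n a =>
    obtain ⟨a', ha'⟩ : ∃ a' : F, a' ^ p = a := by
      have h1 : Function.Surjective (frobenius F p) :=
        Finite.injective_iff_surjective.mp (frobenius F p).injective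
      exact h1 a
    refine ⟨Pi.single ⟨n % p, Nat.mod_lt _ hp.pos⟩ (C a' * X ^ (n / p)), ?_⟩
    rw [Finset.sum_eq_single (⟨n % p, Nat.mod_lt _ hp.pos⟩ : Fin p)]
    · rw [Pi.single_eq_same, mul_pow, ← C_pow, ha', ← pow_mul, mul_assoc, ← pow_add,
        mul_comm (n / p), Nat.div_add_mod, C_mul_X_pow_eq_monomial]
    · intro i _ hi
      rw [Pi.single_eq_of_ne hi, zero_pow hp.ne_zero, zero_mul]
    · intro h
      exact absurd (Finset.mem_univ _) h

/-- Rational functions over a finite field. -/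
theorem gen_ratFunc (F : Type*) [Field F] [Finite F] [CharP F p] :
    Gen (RatFunc F) p (algebraMap F[X] (RatFunc F) X) := by
  have hp : p.Prime := Fact.out
  have hch : CharP (RatFunc F) p := charP_of_injective_algebraMap
    (algebraMap F (RatFunc F)).injective p
  intro r
  obtain ⟨P, Q, hQ, rfl⟩ := IsFractionRing.div_surjective (A := F[X]) r
  have hQ0 : algebraMap F[X] (RatFunc F) Q ≠ 0 := by
    intro h
    exact (nonZeroDivisors.ne_zero hQ) ((IsFractionRing.injective F[X] (RatFunc F))
      (by rw [h, map_zero]))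
  obtain ⟨s, hs⟩ := gen_poly F (P * Q ^ (p - 1))
  refine ⟨fun i => algebraMap F[X] (RatFunc F) (s i) / algebraMap F[X] (RatFunc F) Q, ?_⟩
  have h1 : algebraMap F[X] (RatFunc F) P / algebraMap F[X] (RatFunc F) Q =
      algebraMap F[X] (RatFunc F) (P * Q ^ (p - 1)) / algebraMap F[X] (RatFunc F) Q ^ p := by
    have h2 : algebraMap F[X] (RatFunc F) Q ^ p =
        algebraMap F[X] (RatFunc F) Q ^ (p - 1) * algebraMap F[X] (RatFunc F) Q := by
      rw [← pow_succ, Nat.sub_add_cancel hp.one_le]
    rw [h2, map_mul, map_pow]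
    have h3 : algebraMap F[X] (RatFunc F) Q ^ (p - 1) ≠ 0 := pow_ne_zero _ hQ0
    field_simp
  rw [h1, hs, map_sum, Finset.sum_div]
  refine Finset.sum_congr rfl fun i _ => ?_
  rw [map_mul, map_pow, map_pow, div_pow]
  ring

/-- A finite separable extension. -/
theorem gen_sep {M k : Type*} [Field M] [Field k] [Algebra M k] [FiniteDimensional M k]
    [Algebra.IsSeparable M k] [CharP M p] {t : M} (h : Gen M p t) :
    Gen k p (algebraMap M k t) := by
  have hp : p.Prime := Fact.out
  have hch : CharP k p := charP_of_injective_algebraMap (algebraMap M k).injective p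
  obtain ⟨x, hx⟩ := Field.exists_primitive_element M k
  have h1 : M⟮x ^ p⟯ = ⊤ := by
    have h2 := IntermediateField.adjoin_simple_eq_adjoin_pow_expChar_pow_of_isSeparable' M k x p 1
    rw [pow_one] at h2
    rw [← h2, hx]
  let B := IntermediateField.adjoin.powerBasis (IsIntegral.of_finite M (x ^ p))
  intro b
  have hb : b ∈ M⟮x ^ p⟯ := by rw [h1]; exact IntermediateField.mem_top
  have h3 := B.basis.sum_repr ⟨b, hb⟩
  have h4 : b = ∑ j : Fin B.dim, algebraMap M k (B.basis.repr ⟨b, hb⟩ j) * (x ^ p) ^ (j : ℕ) := by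
    have h5 := congrArg (algebraMap M⟮x ^ p⟯ k) h3
    rw [map_sum] at h5
    refine Eq.trans ?_ (h5.symm.trans (Finset.sum_congr rfl fun j _ => ?_))
    · rfl
    · rw [Algebra.smul_def, map_mul, PowerBasis.basis_eq_pow, map_pow]
      rfl
  choose s hs using fun j => h (B.basis.repr ⟨b, hb⟩ j)
  refine ⟨fun i => ∑ j : Fin B.dim, algebraMap M k (s j i) * x ^ (j : ℕ), ?_⟩
  conv_lhs => rw [h4]
  simp only [sum_pow_char, Finset.sum_mul]
  rw [Finset.sum_comm]
  refine Finset.sum_congr rfl fun j _ => ?_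
  conv_lhs => rw [hs j]
  rw [map_sum, Finset.sum_mul]
  refine Finset.sum_congr rfl fun i _ => ?_
  rw [map_mul, map_pow, map_pow, mul_pow, ← pow_mul, ← pow_mul, mul_comm (j : ℕ) p]
  ring

/-- Iteration. -/
theorem gen_pow {k : Type*} [Field k] [CharP k p] {c : k} (h : Gen k p c) :
    ∀ e : ℕ, Gen k (p ^ e) c := by
  intro e
  induction e with
  | zero =>
    rw [pow_zero]
    intro b
    exact ⟨fun _ => b, by simp⟩
  | succ e ih =>
    intro b
    obtain ⟨a, ha⟩ := h b
    choose s hs using fun i => ih (a i)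
    refine ⟨fun m => s (finProdFinEquiv.symm m).2 (finProdFinEquiv.symm m).1, ?_⟩
    have h1 : ∑ m : Fin (p ^ e * p), s (finProdFinEquiv.symm m).2 (finProdFinEquiv.symm m).1 ^
        p ^ (e + 1) * c ^ (m : ℕ) = ∑ x : Fin (p ^ e) × Fin p,
          s x.2 x.1 ^ p ^ (e + 1) * c ^ ((x.2 : ℕ) + p * (x.1 : ℕ)) := by
      rw [← finProdFinEquiv.sum_comp]
      refine Finset.sum_congr rfl fun x _ => ?_
      rw [Equiv.symm_apply_apply]
      rfl
    refine Eq.trans ?_ h1.symm
    rw [Fintype.sum_prod_type, Finset.sum_comm]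
    conv_lhs => rw [ha]
    refine Finset.sum_congr rfl fun i _ => ?_
    conv_lhs => rw [hs i]
    rw [sum_pow_char, Finset.sum_mul]
    refine Finset.sum_congr rfl fun j _ => ?_
    rw [mul_pow, ← pow_mul, ← pow_succ, ← pow_mul, pow_add, mul_comm p]
    ring

end Vale.Agent.P011.H14.Insep
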