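import Vale.Agent.P011.H14.Insep.KB1

/-!
# The components for a uniformizer
-/

open Module Polynomial

namespace Vale.Agent.P011.H14.Insep

variable {p : ℕ} [Fact p.Prime] {k : Type*} [Field k] [CharP k p]

/-- Change of the generator. -/
theorem gen_change {t c : k} (h : Gen k p t)
    (hc : ∀ s : Fin p → k, ∑ i, s i ^ p * c ^ (i : ℕ) = 0 → s = 0) : Gen k p c := by
  classical
  have hp : p.Prime := Fact.out
  let Kp : Subfield k := (frobenius k p).fieldRange
  have hmem : ∀ x : k, x ^ p ∈ Kp := fun x => ⟨x, rfl⟩
  have hspan : ⊤ ≤ Submodule.span Kp (Set.range fun i : Fin p => t ^ (i : ℕ)) := by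
    intro b _
    obtain ⟨s, hs⟩ := h b
    rw [hs]
    refine Submodule.sum_mem _ fun i _ => ?_
    have h1 : s i ^ p * t ^ (i : ℕ) = (⟨s i ^ p, hmem _⟩ : Kp) • t ^ (i : ℕ) := rfl
    rw [h1]
    exact Submodule.smul_mem _ _ (Submodule.subset_span ⟨i, rfl⟩)
  have hfin : Module.Finite Kp k :=
    Module.finite_def.mpr ⟨Finset.univ.image fun i : Fin p => t ^ (i : ℕ), by
      rw [Finset.coe_image, Finset.coe_univ, Set.image_univ, top_le_iff.mp hspan]⟩
  have hle : finrank Kp k ≤ p := by
    have h1 := finrank_range_le_card (R := Kp) (fun i : Fin p => t ^ (i : ℕ))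
    rw [Set.finrank, top_le_iff.mp hspan, finrank_top, Fintype.card_fin] at h1
    exact h1
  have hli : LinearIndependent Kp fun i : Fin p => c ^ (i : ℕ) := by
    rw [Fintype.linearIndependent_iff]
    intro g hg
    choose s hs using fun i => (g i).2
    have h1 : ∀ i, s i ^ p = (g i : k) := hs
    have h2 := hc s (by
      rw [← hg]
      refine Finset.sum_congr rfl fun i _ => ?_
      rw [h1]
      rfl)
    intro i
    apply Subtype.ext
    rw [← h1 i, h2, Pi.zero_apply, zero_pow hp.ne_zero]
    rfl
  have hcard : finrank Kp k = p := le_antisymm hle (by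
    have h1 := hli.fintype_card_le_finrank
    rwa [Fintype.card_fin] at h1)
  have hne : Nonempty (Fin p) := ⟨⟨0, hp.pos⟩⟩
  let B := basisOfLinearIndependentOfCardEqFinrank hli (by rw [Fintype.card_fin, hcard])
  intro b
  choose s hs using fun i => (B.repr b i).2
  have h1 : ∀ i, s i ^ p = (B.repr b i : k) := hs
  refine ⟨s, ?_⟩
  conv_lhs => rw [← B.sum_repr b]
  refine Finset.sum_congr rfl fun i _ => ?_
  rw [h1, coe_basisOfLinearIndependentOfCardEqFinrank]
  rfl

/-- The components. -/
theorem exists_kappa {q : ℕ} (hq : 0 < q) (hpow : ∀ x y : k, (x + y) ^ q = x ^ q + y ^ q) {c : k}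
    (h : Gen k q c) (hc : ∀ s : Fin q → k, ∑ i, s i ^ q * c ^ (i : ℕ) = 0 → s = 0) :
    ∃ κ : Fin q → k → k, (∀ i x y, κ i (x + y) = κ i x + κ i y) ∧
      (∀ b, b = ∑ i : Fin q, κ i b ^ q * c ^ (i : ℕ)) ∧
      ∀ b i, κ i (b ^ q) = if (i : ℕ) = 0 then b else 0 := by
  have hneg : ∀ x : k, (-x) ^ q = -x ^ q := fun x => by
    have h1 := hpow x (-x)
    rw [add_neg_cancel, zero_pow hq.ne'] at h1
    exact (neg_eq_of_add_eq_zero_right h1.symm).symm
  have huniq : ∀ s s' : Fin q → k, ∑ i, s i ^ q * c ^ (i : ℕ) = ∑ i, s' i ^ q * c ^ (i : ℕ) →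
      s = s' := by
    intro s s' hs
    have h1 := hc (fun i => s i + -s' i) (by
      simp only [hpow, hneg, add_mul, neg_mul, Finset.sum_add_distrib, Finset.sum_neg_distrib]
      rw [hs, add_neg_cancel])
    funext i
    have h2 := congrFun h1 i
    exact add_neg_eq_zero.mp h2
  choose κ hκ using h
  refine ⟨fun i b => κ b i, fun i x y => ?_, hκ, fun b i => ?_⟩
  · have h1 := huniq (κ (x + y)) (fun i => κ x i + κ y i) (by
      rw [← hκ]
      simp only [hpow, add_mul, Finset.sum_add_distrib]
      rw [← hκ, ← hκ])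
    exact congrFun h1 i
  · have h1 := huniq (κ (b ^ q)) (fun i => if (i : ℕ) = 0 then b else 0) (by
      rw [← hκ, Finset.sum_eq_single (⟨0, hq⟩ : Fin q)]
      · simp
      · intro j _ hj
        rw [if_neg fun h0 => hj (Fin.ext h0), zero_pow hq.ne', zero_mul]
      · intro h0
        exact absurd (Finset.mem_univ _) h0)
    exact congrFun h1 i

omit [Fact p.Prime] [CharP k p] in
/-- A sum of elements of different absolute values. -/
theorem le_abv_sum (v : AbsoluteValue k ℝ) (hv : ∀ x y, v (x + y) ≤ max (v x) (v y))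
    {ι : Type*} (s : Finset ι) (f : ι → k)
    (hf : ∀ i ∈ s, ∀ j ∈ s, i ≠ j → f i ≠ 0 → f j ≠ 0 → v (f i) ≠ v (f j)) :
    ∀ i ∈ s, v (f i) ≤ v (∑ j ∈ s, f j) := by
  classical
  have hneg : ∀ x, v (-x) = v x := v.map_neg
  -- ultrametric: different absolute values
  have hne : ∀ x y, v x < v y → v (x + y) = v y := by
    intro x y h
    refine le_antisymm ((hv x y).trans (by rw [max_eq_right h.le])) ?_
    by_contra hcon
    rw [not_le] at hcon
    have h1 := hv (x + y) (-x)
    rw [hneg, add_neg_cancel_comm] at h1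
    exact absurd h1 (not_le.mpr (max_lt hcon h))
  induction s using Finset.induction_on with
  | empty => intro i hi; exact absurd hi (Finset.notMem_empty i)
  | insert a s ha ih =>
    -- the sum has the absolute value of one of its nonzero terms, or is zero with all terms
    have key : ∀ t : Finset ι, (∀ i ∈ t, ∀ j ∈ t, i ≠ j → f i ≠ 0 → f j ≠ 0 → v (f i) ≠ v (f j)) →
        (∀ i ∈ t, f i = 0) ∨ ∃ i ∈ t, f i ≠ 0 ∧ v (∑ j ∈ t, f j) = v (f i) := by
      intro t
      induction t using Finset.induction_on with
      | empty => intro _; exact Or.inl fun i hi => absurd hi (Finset.notMem_empty i)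
      | insert b t hb iht =>
        intro ht
        have h1 := iht fun i hi j hj => ht i (Finset.mem_insert_of_mem hi) j
          (Finset.mem_insert_of_mem hj)
        rw [Finset.sum_insert hb]
        by_cases hb0 : f b = 0
        · rw [hb0, zero_add]
          rcases h1 with h1 | ⟨i, hi, hi0, hi1⟩
          · left
            intro i hi
            rcases Finset.mem_insert.mp hi with rfl | hi
            · exact hb0
            · exact h1 i hi
          · exact Or.inr ⟨i, Finset.mem_insert_of_mem hi, hi0, hi1⟩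
        · right
          rcases h1 with h1 | ⟨i, hi, hi0, hi1⟩
          · refine ⟨b, Finset.mem_insert_self _ _, hb0, ?_⟩
            rw [Finset.sum_eq_zero h1, add_zero]
          · have h2 : v (f b) ≠ v (f i) := ht b (Finset.mem_insert_self _ _) i
              (Finset.mem_insert_of_mem hi) (by rintro rfl; exact hb hi) hb0 hi0
            rcases lt_or_gt_of_ne h2 with h3 | h3
            · refine ⟨i, Finset.mem_insert_of_mem hi, hi0, ?_⟩
              rw [hne _ _ (by rwa [hi1]), hi1]
            · refine ⟨b, Finset.mem_insert_self _ _, hb0, ?_⟩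
              rw [add_comm, hne _ _ (by rwa [hi1])]
    intro i hi
    have hs := ih fun i hi j hj => hf i (Finset.mem_insert_of_mem hi) j
      (Finset.mem_insert_of_mem hj)
    rw [Finset.sum_insert ha]
    by_cases ha0 : f a = 0
    · rw [ha0, zero_add]
      rcases Finset.mem_insert.mp hi with rfl | hi
      · rw [ha0, map_zero]
        exact v.nonneg _
      · exact hs i hi
    · rcases key s (fun i hi j hj => hf i (Finset.mem_insert_of_mem hi) j
        (Finset.mem_insert_of_mem hj)) with h1 | ⟨j, hj, hj0, hj1⟩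
      · rw [Finset.sum_eq_zero h1, add_zero]
        rcases Finset.mem_insert.mp hi with rfl | hi
        · exact le_rfl
        · rw [h1 i hi, map_zero]
          exact v.nonneg _
      · have h2 : v (f a) ≠ v (f j) := hf a (Finset.mem_insert_self _ _) j
          (Finset.mem_insert_of_mem hj) (by rintro rfl; exact ha hj) ha0 hj0
        rcases lt_or_gt_of_ne h2 with h3 | h3
        · rw [hne _ _ (by rwa [hj1])]
          rcases Finset.mem_insert.mp hi with rfl | hi
          · rw [hj1]; exact h3.le
          · exact hs i hi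
        · rw [add_comm, hne _ _ (by rwa [hj1])]
          rcases Finset.mem_insert.mp hi with rfl | hi
          · exact le_rfl
          · exact (hs i hi).trans (by rw [hj1]; exact h3.le)

end Vale.Agent.P011.H14.Insep
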