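import Vale.Agent.P011.H14.Insep.KB2
import Vale.Agent.P011.H279.SqrtB

/-!
# The components in powers of a uniformizer with coefficients in the `q`-th powers

`k` a global function field of characteristic `p`, `q = p ^ e`, `c` a uniformizer at the places of
`T`.  Every `b` is `∑ κ i b ^ q * c ^ i`, `i < q`, with `κ i` additive and
`|κ i b| ^ q * |c| ^ i ≤ |b|` at the places of `T`.
-/

open Module Polynomial

namespace Vale.Agent.P011.H14.Insep

open Vale.Agent.P011.H738 Vale.Agent.P011.H271 Vale.Agent.P011.H305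
open Vale.Agent.P011.H279.Sq (Uni)

variable {k : Type} [Field k]

/-- The absolute values at a uniformizer. -/
theorem uni_zpow [GFF k] {v : Place k} {c : k} (h : Uni v c) {x : k} (hx : x ≠ 0) :
    ∃ m : ℤ, v.abv x = v.abv c ^ m := by
  obtain ⟨x0, hx0, hx1⟩ := Hey.exists_unif v
  have h1 := one_lt_qq' v
  obtain ⟨m, hm⟩ := exists_eq_zpow v h.1
  have hx0' : v.abv x0 < 1 := by rw [hx1]; exact inv_lt_one_of_one_lt₀ h1
  have h2 := h.2.2 x0 hx0'
  have hm1 : m = -1 := by
    have h3 := h.2.1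
    rw [hx1, hm, ← zpow_neg_one] at h2
    rw [hm] at h3
    have h4 : (-1 : ℤ) ≤ m := (zpow_le_zpow_iff_right₀ h1).mp h2
    have h5 : m < 0 := by
      by_contra hcon
      rw [not_lt] at hcon
      exact absurd h3 (not_lt.mpr (one_le_zpow₀ h1.le hcon))
    omega
  obtain ⟨m', hm'⟩ := exists_eq_zpow v hx
  refine ⟨-m', ?_⟩
  rw [hm', hm, hm1, ← zpow_mul]
  congr 1
  ring

/-- The terms of an expansion. -/
theorem uni_le [GFF k] {v : Place k} {c : k} (h : Uni v c) {q : ℕ} (s : Fin q → k) (i : Fin q) :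
    v.abv (s i) ^ q * v.abv c ^ (i : ℕ) ≤ v.abv (∑ j, s j ^ q * c ^ (j : ℕ)) := by
  have hc0 : 0 < v.abv c := v.abv.pos h.1
  have h1 := le_abv_sum v.abv v.nonarch Finset.univ (fun j : Fin q => s j ^ q * c ^ (j : ℕ)) (by
    intro a _ b _ hab ha hb heq
    have ha0 : s a ≠ 0 := by
      intro h0
      apply ha
      rw [h0, zero_pow (by have := a.2; omega), zero_mul]
    have hb0 : s b ≠ 0 := by
      intro h0
      apply hb
      rw [h0, zero_pow (by have := b.2; omega), zero_mul]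
    obtain ⟨m, hm⟩ := uni_zpow h ha0
    obtain ⟨m', hm'⟩ := uni_zpow h hb0
    change v.abv (s a ^ q * c ^ (a : ℕ)) = v.abv (s b ^ q * c ^ (b : ℕ)) at heq
    rw [map_mul, map_mul, map_pow, map_pow, map_pow, map_pow, hm, hm', ← zpow_natCast,
      ← zpow_natCast, ← zpow_natCast, ← zpow_natCast, ← zpow_mul, ← zpow_mul,
      ← zpow_add₀ hc0.ne', ← zpow_add₀ hc0.ne'] at heq
    have h2 := zpow_right_injective₀ hc0 h.2.1.ne heq
    apply hab
    apply Fin.ext
    have h3 := a.2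
    have h4 := b.2
    have h5 : (q : ℤ) ∣ (a : ℤ) - (b : ℤ) := ⟨m' - m, by linarith⟩
    have h6 : (a : ℤ) - (b : ℤ) = 0 := by
      apply Int.eq_zero_of_abs_lt_dvd h5
      rw [abs_lt]
      constructor <;> omega
    omega) i (Finset.mem_univ i)
  change v.abv (s i ^ q * c ^ (i : ℕ)) ≤ _ at h1
  rwa [map_mul, map_pow, map_pow] at h1

theorem uni_zero [GFF k] {v : Place k} {c : k} (h : Uni v c) {q : ℕ} (s : Fin q → k)
    (hs : ∑ j, s j ^ q * c ^ (j : ℕ) = 0) : s = 0 := by
  funext i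
  have h1 := uni_le h s i
  rw [hs, map_zero] at h1
  have hc0 : 0 < v.abv c := v.abv.pos h.1
  have h2 : v.abv (s i) ^ q ≤ 0 := by
    by_contra hcon
    rw [not_le] at hcon
    exact absurd h1 (not_le.mpr (by positivity))
  have hq : q ≠ 0 := by have := i.2; omega
  have h3 : v.abv (s i) = 0 := by
    have h4 : v.abv (s i) ^ q = 0 := le_antisymm h2 (by positivity)
    exact (pow_eq_zero_iff hq).mp h4
  exact v.abv.eq_zero.mp h3

/-- A global function field is generated over its `p`-th powers by one element. -/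
theorem exists_gen [GFF k] {p : ℕ} [Fact p.Prime] [CharP k p] : ∃ t : k, Gen k p t := by
  obtain ⟨F, _, _, φ, h1, h2⟩ := GFF.out (k := k)
  let _ : Algebra (RatFunc F) k := φ.toAlgebra
  have : FiniteDimensional (RatFunc F) k := h1
  have : Algebra.IsSeparable (RatFunc F) k := h2
  have hM : CharP (RatFunc F) p := (algebraMap (RatFunc F) k).charP_iff_charP p |>.mpr inferInstance
  have hF : CharP F p := (algebraMap F (RatFunc F)).charP_iff_charP p |>.mpr inferInstance
  exact ⟨_, gen_sep (gen_ratFunc F)⟩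

/-- **The components for a uniformizer.** -/
theorem kbase [GFF k] {p : ℕ} [Fact p.Prime] [CharP k p] (e : ℕ) {T : Finset (Place k)}
    (hT : T.Nonempty) {c : k} (hc : ∀ v ∈ T, Uni v c) :
    ∃ κ : Fin (p ^ e) → k → k, (∀ i x y, κ i (x + y) = κ i x + κ i y) ∧
      (∀ b, b = ∑ i : Fin (p ^ e), κ i b ^ p ^ e * c ^ (i : ℕ)) ∧
      (∀ b i, κ i (b ^ p ^ e) = if (i : ℕ) = 0 then b else 0) ∧
      ∀ v ∈ T, ∀ i b, v.abv (κ i b) ^ p ^ e * v.abv c ^ (i : ℕ) ≤ v.abv b := by
  have hp : p.Prime := Fact.out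
  obtain ⟨v0, hv0⟩ := hT
  obtain ⟨t, ht⟩ := exists_gen (k := k) (p := p)
  have h1 : Gen k p c := gen_change ht fun s hs => uni_zero (hc v0 hv0) s hs
  obtain ⟨κ, hκ1, hκ2, hκ3⟩ := exists_kappa (pow_pos hp.pos e)
    (fun x y => add_pow_char_pow x y p e) (gen_pow h1 e)
    (fun s hs => uni_zero (hc v0 hv0) s hs)
  refine ⟨κ, hκ1, hκ2, hκ3, fun v hv i b => ?_⟩
  have h2 := uni_le (hc v hv) (fun j => κ j b) i
  rwa [← hκ2] at h2

end Vale.Agent.P011.H14.Insep
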